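import Vale.Agent.Lib.P344.Defs

/-! P344: the number of additions. -/

namespace Vale.Agent.P344

open Finset

theorem numAdd_add_numMul (c : List Gate) : c.length = numAdd c + numMul c := by
  induction c with
  | nil => rfl
  | cons g c ih => cases g <;> simp [numAdd, numMul, ih] <;> omega

/-- circuits commute with linear maps -/
theorem run_map {M N : Type} [AddCommGroup M] [Module ℂ M] [AddCommGroup N] [Module ℂ N]
    (f : M →ₗ[ℂ] N) (c : List Gate) : ∀ L : List M, (run L c).map f = run (L.map f) c := by
  have hget : ∀ (L : List M) (i : ℕ), (L.map f).getD i 0 = f (L.getD i 0) := by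
    intro L i
    rw [← map_zero f, List.getD_map]
  induction c with
  | nil => intro L; rfl
  | cons g c ih =>
    intro L
    simp only [run]
    rw [ih, List.map_append, List.map_cons, List.map_nil]
    congr 3
    cases g with
    | add i j => simp only [Gate.val]; rw [map_add, hget, hget]
    | sub i j => simp only [Gate.val]; rw [map_sub, hget, hget]
    | smul a i => simp only [Gate.val]; rw [map_smul, hget]

section

variable {n : ℕ}

open Classical in
/-- union of the supports -/
noncomputable def sup' (U : Finset (Fin n → ℂ)) : Finset (Fin n) :=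
  univ.filter fun k => ∃ u ∈ U, u k ≠ 0

theorem mem_sup' (U : Finset (Fin n → ℂ)) (k : Fin n) : k ∈ sup' U ↔ ∃ u ∈ U, u k ≠ 0 := by
  simp [sup']

/-- the invariant with `a` additions -/
structure Inv (L : List (Fin n → ℂ)) (a : ℕ) : Prop where
  zero : (0 : Fin n → ℂ) ∈ L
  supp : ∀ U : Finset (Fin n → ℂ), (∀ u ∈ U, u ∈ L) → (sup' U).card ≤ U.card + a
  full : ∀ U : Finset (Fin n → ℂ), (∀ u ∈ U, u ∈ L) → (∀ u ∈ U, ∀ k, u k ≠ 0) →
    (∀ u ∈ U, ∀ v ∈ U, u ≠ v → ∀ c : ℂ, u ≠ c • v) → U.Nonempty → U.card + n ≤ a + 2

theorem getD_mem {L : List (Fin n → ℂ)} (h : (0 : Fin n → ℂ) ∈ L) (i : ℕ) : L.getD i 0 ∈ L := by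
  rcases lt_or_ge i L.length with hi | hi
  · rw [List.getD_eq_getElem _ _ hi]
    exact List.getElem_mem hi
  · rw [List.getD_eq_default _ _ hi]
    exact h

theorem inv_addlike {L : List (Fin n → ℂ)} {a : ℕ} (h : Inv L a) (u w g : Fin n → ℂ) (hu : u ∈ L)
    (hw : w ∈ L) (hg : ∀ k, g k ≠ 0 → u k ≠ 0 ∨ w k ≠ 0) : Inv (L ++ [g]) (a + 1) := by
  classical
  refine ⟨List.mem_append_left _ h.zero, ?_, ?_⟩
  · intro U hU
    by_cases hgU : g ∈ U
    · have h1 := h.supp (U.erase g ∪ {u, w}) (by
        intro x hx
        simp only [mem_union, mem_erase, mem_insert, mem_singleton] at hx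
        rcases hx with ⟨h1, h2⟩ | h1 | h1
        · rcases List.mem_append.1 (hU x h2) with h3 | h3
          · exact h3
          · exact absurd (List.mem_singleton.1 h3) h1
        · rw [h1]; exact hu
        · rw [h1]; exact hw)
      have h2 : sup' U ⊆ sup' (U.erase g ∪ {u, w}) := by
        intro k hk
        rw [mem_sup'] at hk ⊢
        obtain ⟨x, hx, hxk⟩ := hk
        by_cases hxg : x = g
        · rcases hg k (hxg ▸ hxk) with h3 | h3
          · exact ⟨u, by simp, h3⟩
          · exact ⟨w, by simp, h3⟩
        · exact ⟨x, by simp [hxg, hx], hxk⟩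
      have h3 : (U.erase g ∪ {u, w}).card ≤ (U.erase g).card + 2 :=
        (card_union_le _ _).trans (Nat.add_le_add_left card_le_two _)
      have h4 := card_erase_add_one hgU
      have h5 := card_le_card h2
      omega
    · have h1 := h.supp U (by
        intro x hx
        rcases List.mem_append.1 (hU x hx) with h3 | h3
        · exact h3
        · exact absurd (List.mem_singleton.1 h3 ▸ hx) hgU)
      omega
  · intro U hU hfull hpair hne
    by_cases hgU : g ∈ U
    · have hsub : ∀ x ∈ U.erase g, x ∈ L := by
        intro x hx
        rw [mem_erase] at hx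
        rcases List.mem_append.1 (hU x hx.2) with h3 | h3
        · exact h3
        · exact absurd (List.mem_singleton.1 h3) hx.1
      have h4 := card_erase_add_one hgU
      rcases (U.erase g).eq_empty_or_nonempty with he | he
      · have h1 := h.supp {u, w} (by
          intro x hx
          simp only [mem_insert, mem_singleton] at hx
          rcases hx with h1 | h1
          · rw [h1]; exact hu
          · rw [h1]; exact hw)
        have h2 : sup' ({u, w} : Finset (Fin n → ℂ)) = univ := by
          ext k
          rw [mem_sup']
          simp only [mem_univ, iff_true]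
          rcases hg k (hfull g hgU k) with h3 | h3
          · exact ⟨u, by simp, h3⟩
          · exact ⟨w, by simp, h3⟩
        rw [h2, card_univ, Fintype.card_fin] at h1
        have h3 : ({u, w} : Finset (Fin n → ℂ)).card ≤ 2 := card_le_two
        rw [he, card_empty] at h4
        omega
      · have h1 := h.full (U.erase g) hsub (fun x hx => hfull x (mem_of_mem_erase hx))
          (fun x hx y hy => hpair x (mem_of_mem_erase hx) y (mem_of_mem_erase hy)) he
        omega
    · have h1 := h.full U (by
        intro x hx
        rcases List.mem_append.1 (hU x hx) with h3 | h3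
        · exact h3
        · exact absurd (List.mem_singleton.1 h3 ▸ hx) hgU) hfull hpair hne
      omega

theorem inv_smul (hn : 0 < n) {L : List (Fin n → ℂ)} {a : ℕ} (h : Inv L a) (u : Fin n → ℂ)
    (c : ℂ) (hu : u ∈ L) : Inv (L ++ [c • u]) a := by
  classical
  refine ⟨List.mem_append_left _ h.zero, ?_, ?_⟩
  · intro U hU
    by_cases hgU : c • u ∈ U
    · have h1 := h.supp (insert u (U.erase (c • u))) (by
        intro x hx
        simp only [mem_insert, mem_erase] at hx
        rcases hx with h1 | ⟨h1, h2⟩
        · rw [h1]; exact hu
        · rcases List.mem_append.1 (hU x h2) with h3 | h3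
          · exact h3
          · exact absurd (List.mem_singleton.1 h3) h1)
      have h2 : sup' U ⊆ sup' (insert u (U.erase (c • u))) := by
        intro k hk
        rw [mem_sup'] at hk ⊢
        obtain ⟨x, hx, hxk⟩ := hk
        by_cases hxg : x = c • u
        · refine ⟨u, by simp, ?_⟩
          intro h0
          apply hxk
          rw [hxg, Pi.smul_apply, h0, smul_zero]
        · exact ⟨x, by simp [hxg, hx], hxk⟩
      have h3 := card_insert_le u (U.erase (c • u))
      have h4 := card_erase_add_one hgU
      have h5 := card_le_card h2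
      omega
    · exact h.supp U (by
        intro x hx
        rcases List.mem_append.1 (hU x hx) with h3 | h3
        · exact h3
        · exact absurd (List.mem_singleton.1 h3 ▸ hx) hgU)
  · intro U hU hfull hpair hne
    by_cases hgU : c • u ∈ U
    · have hsub : ∀ x ∈ U.erase (c • u), x ∈ L := by
        intro x hx
        rw [mem_erase] at hx
        rcases List.mem_append.1 (hU x hx.2) with h3 | h3
        · exact h3
        · exact absurd (List.mem_singleton.1 h3) hx.1
      have hk0 := hfull _ hgU
      have hc : c ≠ 0 := by
        intro h0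
        apply hk0 ⟨0, hn⟩
        rw [h0, zero_smul, Pi.zero_apply]
      have hunot : u ∉ U.erase (c • u) := by
        intro hmem
        rw [mem_erase] at hmem
        exact hpair _ hgU u hmem.2 (Ne.symm hmem.1) c rfl
      have h4 := card_erase_add_one hgU
      have h1 := h.full (insert u (U.erase (c • u))) (by
          intro x hx
          rcases mem_insert.1 hx with h1 | h1
          · rw [h1]; exact hu
          · exact hsub x h1) (by
          intro x hx k
          rcases mem_insert.1 hx with h1 | h1
          · rw [h1]
            intro h0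
            apply hk0 k
            rw [Pi.smul_apply, h0, smul_zero]
          · exact hfull x (mem_of_mem_erase h1) k) (by
          intro x hx y hy hxy d heq
          rcases mem_insert.1 hx with h1 | h1 <;> rcases mem_insert.1 hy with h2 | h2
          · exact hxy (h1.trans h2.symm)
          · have h5 := mem_erase.1 h2
            refine hpair _ hgU y h5.2 (Ne.symm h5.1) (c * d) ?_
            rw [mul_smul, ← heq, h1]
          · have h5 := mem_erase.1 h1
            refine hpair x h5.2 _ hgU h5.1 (d / c) ?_
            rw [smul_smul, div_mul_cancel₀ _ hc, heq, h2]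
          · exact hpair x (mem_of_mem_erase h1) y (mem_of_mem_erase h2) hxy d heq)
          (insert_nonempty _ _)
      rw [card_insert_of_notMem hunot] at h1
      omega
    · exact h.full U (by
        intro x hx
        rcases List.mem_append.1 (hU x hx) with h3 | h3
        · exact h3
        · exact absurd (List.mem_singleton.1 h3 ▸ hx) hgU) hfull hpair hne

theorem inv_run (hn : 0 < n) (c : List Gate) : ∀ (L : List (Fin n → ℂ)) (a : ℕ), Inv L a →
    Inv (run L c) (a + numAdd c) := by
  induction c with
  | nil => intro L a h; exact h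
  | cons g c ih =>
    intro L a h
    cases g with
    | add i j =>
      have h1 := ih _ _ (inv_addlike h (L.getD i 0) (L.getD j 0)
        (Gate.val L (.add i j)) (getD_mem h.zero i) (getD_mem h.zero j) (by
          intro k hk
          by_contra hcon
          push Not at hcon
          apply hk
          simp only [Gate.val, Pi.add_apply]
          rw [hcon.1, hcon.2, add_zero]))
      simp only [run, numAdd]
      rw [show a + (numAdd c + 1) = a + 1 + numAdd c by ring]
      exact h1
    | sub i j =>
      have h1 := ih _ _ (inv_addlike h (L.getD i 0) (L.getD j 0)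
        (Gate.val L (.sub i j)) (getD_mem h.zero i) (getD_mem h.zero j) (by
          intro k hk
          by_contra hcon
          push Not at hcon
          apply hk
          simp only [Gate.val, Pi.sub_apply]
          rw [hcon.1, hcon.2, sub_zero]))
      simp only [run, numAdd]
      rw [show a + (numAdd c + 1) = a + 1 + numAdd c by ring]
      exact h1
    | smul d i =>
      exact ih _ _ (inv_smul hn h (L.getD i 0) d (getD_mem h.zero i))

/-- the initial list of coefficient vectors -/
noncomputable def init (n : ℕ) : List (Fin n → ℂ) := 0 :: List.ofFn fun k => Pi.single k 1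

theorem inv_init (hn : 2 ≤ n) : Inv (init n) 0 := by
  classical
  have hmem : ∀ u ∈ init n, u = 0 ∨ ∃ k, u = Pi.single k 1 := by
    intro u hu
    unfold init at hu
    rcases List.mem_cons.1 hu with h | h
    · exact Or.inl h
    · rw [List.mem_ofFn] at h
      obtain ⟨k, hk⟩ := h
      exact Or.inr ⟨k, hk.symm⟩
  refine ⟨List.mem_cons_self, ?_, ?_⟩
  · intro U hU
    have h1 : sup' U ⊆ U.biUnion fun u => univ.filter fun k => u k ≠ 0 := by
      intro k hk
      rw [mem_sup'] at hk
      obtain ⟨u, hu, huk⟩ := hk
      rw [mem_biUnion]
      exact ⟨u, hu, by simp [huk]⟩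
    refine (card_le_card h1).trans (card_biUnion_le.trans ?_)
    calc ∑ u ∈ U, (univ.filter fun k => u k ≠ 0).card ≤ ∑ _u ∈ U, 1 := by
          refine sum_le_sum fun u hu => ?_
          rcases hmem u (hU u hu) with h | ⟨k, h⟩
          · rw [h]; simp
          · rw [h, card_le_one]
            intro a ha b hb
            simp only [mem_filter, mem_univ, true_and] at ha hb
            have h2 : a = k := by
              by_contra hne
              exact ha (Pi.single_eq_of_ne hne _)
            have h3 : b = k := by
              by_contra hne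
              exact hb (Pi.single_eq_of_ne hne _)
            rw [h2, h3]
      _ = U.card + 0 := by simp
  · intro U hU hfull _ hne
    exfalso
    obtain ⟨u, hu⟩ := hne
    rcases hmem u (hU u hu) with h | ⟨k, h⟩
    · exact hfull u hu ⟨0, by omega⟩ (by rw [h]; rfl)
    · obtain ⟨m, hm⟩ : ∃ m : Fin n, m ≠ k := by
        by_cases h0 : k = ⟨0, by omega⟩
        · exact ⟨⟨1, by omega⟩, by rw [h0]; simp [Fin.ext_iff]⟩
        · exact ⟨⟨0, by omega⟩, fun h => h0 h.symm⟩
      exact hfull u hu m (by rw [h]; exact Pi.single_eq_of_ne hm _)

/-- the coefficient vectors of the outputs -/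
theorem out_vec {c : List Gate} {out : Fin n → ℕ} (h : ComputesDFT n c out) (j : Fin n) :
    (run (init n) c).getD (out j) 0 =
      fun k : Fin n => Complex.exp (2 * Real.pi * Complex.I * (j * k) / n) := by
  funext m
  classical
  have h1 := h (Pi.single m 1) j
  have h2 := run_map (LinearMap.proj (R := ℂ) (φ := fun _ : Fin n => ℂ) m) c (init n)
  have h3 : (init n).map (LinearMap.proj (R := ℂ) (φ := fun _ : Fin n => ℂ) m) =
      (0 : ℂ) :: List.ofFn (Pi.single m 1 : Fin n → ℂ) := by
    unfold init
    rw [List.map_cons, map_zero, List.map_ofFn]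
    congr 2
    funext k
    simp only [Function.comp_apply, LinearMap.proj_apply]
    rw [Pi.single_comm]
  rw [h3] at h2
  rw [← h2] at h1
  have h4 : ((run (init n) c).map (LinearMap.proj (R := ℂ) (φ := fun _ : Fin n => ℂ) m)).getD
      (out j) 0 = ((run (init n) c).getD (out j) 0) m := by
    have h5 : (0 : ℂ) = LinearMap.proj (R := ℂ) (φ := fun _ : Fin n => ℂ) m 0 := by simp
    rw [h5, List.getD_map]
    simp
  rw [h4] at h1
  rw [h1]
  simp [Pi.single_apply]

theorem adds_bound (hn : 2 ≤ n) {c : List Gate} {out : Fin n → ℕ} (h : ComputesDFT n c out) :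
    2 * n ≤ numAdd c + 2 := by
  classical
  have hinv := inv_run (by omega : 0 < n) c (init n) 0 (inv_init hn)
  rw [zero_add] at hinv
  set F : Fin n → (Fin n → ℂ) := fun j k =>
    Complex.exp (2 * Real.pi * Complex.I * ((j : ℂ) * (k : ℂ)) / n) with hF
  have hn0 : (n : ℂ) ≠ 0 := by
    have : n ≠ 0 := by omega
    exact_mod_cast this
  have h00 : ∀ j : Fin n, F j ⟨0, by omega⟩ = 1 := by
    intro j
    simp [hF]
  have hinj : ∀ i j : Fin n, ∀ d : ℂ, F i = d • F j → i = j := by
    intro i j d hd
    have h1 := congrFun hd ⟨0, by omega⟩
    rw [Pi.smul_apply, h00, h00] at h1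
    have hd1 : d = 1 := by simpa using h1.symm
    rw [hd1, one_smul] at hd
    have h2 := congrFun hd ⟨1, by omega⟩
    simp only [hF] at h2
    have hz := Complex.isPrimitiveRoot_exp n (by omega)
    have e : ∀ i : Fin n, Complex.exp (2 * Real.pi * Complex.I *
        ((i : ℂ) * (((⟨1, by omega⟩ : Fin n) : ℕ) : ℂ)) / n) =
        Complex.exp (2 * Real.pi * Complex.I / n) ^ (i : ℕ) := by
      intro i
      rw [← Complex.exp_nat_mul]
      congr 1
      push_cast
      ring
    rw [e, e] at h2
    exact Fin.ext (hz.pow_inj i.2 j.2 h2)
  have hcard : (univ.image F).card = n := by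
    rw [card_image_of_injective _ (fun i j hij => hinj i j 1 (by rw [one_smul]; exact hij)),
      card_univ, Fintype.card_fin]
  have h1 := hinv.full (univ.image F) (by
      intro u hu
      obtain ⟨j, -, rfl⟩ := mem_image.1 hu
      have h2 := getD_mem hinv.zero (out j)
      rw [out_vec h j] at h2
      exact h2) (by
      intro u hu k
      obtain ⟨j, -, rfl⟩ := mem_image.1 hu
      exact Complex.exp_ne_zero _) (by
      intro u hu v hv huv d heq
      obtain ⟨i, -, rfl⟩ := mem_image.1 hu
      obtain ⟨j, -, rfl⟩ := mem_image.1 hv
      exact huv (congrArg F (hinj i j d heq)))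
      ⟨F ⟨0, by omega⟩, mem_image_of_mem _ (mem_univ _)⟩
  rw [hcard] at h1
  omega

end

end Vale.Agent.P344
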