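import Vale.Agent.Lib.P344.Count

/-! P344: at least `3 n - n / p - 3` additions for every circuit computing the Fourier transform. -/

namespace Vale.Agent.P344

open Finset

/-- the gate is an addition or a subtraction -/
def isAddB : Option Gate → Bool
  | some (.add _ _) => true
  | some (.sub _ _) => true
  | _ => false

theorem sum_isAdd (cs : List Gate) :
    ∑ k ∈ range cs.length, (if isAddB cs[k]? = true then 1 else 0) = numAdd cs := by
  induction cs with
  | nil => rfl
  | cons g cs ih =>
    rw [List.length_cons, sum_range_succ']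
    have h1 : ∀ k ∈ range cs.length, (if isAddB (g :: cs)[k + 1]? = true then 1 else 0) =
        (if isAddB cs[k]? = true then 1 else 0) := by
      intro k _
      rw [List.getElem?_cons_succ]
    rw [sum_congr rfl h1, ih, List.getElem?_cons_zero]
    cases g <;> simp [isAddB, numAdd]

theorem run_append {M : Type} [AddCommGroup M] [Module ℂ M] (cs : List Gate) :
    ∀ L : List M, ∃ T, run L cs = L ++ T ∧ T.length = cs.length := by
  induction cs with
  | nil => intro L; exact ⟨[], by simp [run]⟩
  | cons g cs ih =>
    intro L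
    obtain ⟨T, h1, h2⟩ := ih (L ++ [g.val L])
    exact ⟨g.val L :: T, by rw [run, h1]; simp, by simp [h2]⟩

theorem run_getD {M : Type} [AddCommGroup M] [Module ℂ M] (cs : List Gate) :
    ∀ (L : List M) (k : ℕ) (g : Gate), cs[k]? = some g →
      (run L cs).getD (L.length + k) 0 = Gate.val ((run L cs).take (L.length + k)) g := by
  induction cs with
  | nil => intro L k g hg; simp at hg
  | cons g' cs ih =>
    intro L k g hg
    rw [run]
    cases k with
    | zero =>
      rw [List.getElem?_cons_zero] at hg
      have e : g' = g := Option.some.inj hg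
      subst e
      obtain ⟨T, h1, -⟩ := run_append cs (L ++ [g'.val L])
      rw [h1, add_zero]
      have e1 : (L ++ [g'.val L] ++ T).getD L.length 0 = g'.val L := by
        rw [List.append_assoc, List.getD_append_right _ _ _ _ le_rfl]
        simp
      have e2 : (L ++ [g'.val L] ++ T).take L.length = L := by
        rw [List.append_assoc, List.take_left']
        rfl
      rw [e1, e2]
    | succ k =>
      rw [List.getElem?_cons_succ] at hg
      have h1 := ih (L ++ [g'.val L]) k g hg
      rw [List.length_append, List.length_singleton] at h1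
      rw [show L.length + (k + 1) = L.length + 1 + k by ring]
      exact h1

theorem adds_bound3 {n : ℕ} (hn : 2 ≤ n) {cs : List Gate} {out : Fin n → ℕ}
    (h : ComputesDFT n cs out) : 3 * n ≤ numAdd cs + n / n.minFac + 3 := by
  classical
  obtain ⟨T, hT, hTlen⟩ := run_append cs (init n)
  have hlen : (init n).length = n + 1 := by simp [init]
  set V := run (init n) cs with hV
  have hVlen : V.length = n + 1 + cs.length := by rw [hT, List.length_append, hlen, hTlen]
  let w : ℕ → (Fin n → ℂ) := fun k => V.getD (n + 1 + k) 0
  let X : ℕ → ℕ → (Fin n → ℂ) := fun k i => (V.take (n + 1 + k)).getD i 0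
  have hinit : ∀ i, V.getD i 0 = 0 ∨ (∃ j, V.getD i 0 = Pi.single j 1) ∨
      ∃ l, i = n + 1 + l ∧ l < cs.length := by
    intro i
    rcases lt_or_ge i (n + 1) with hi | hi
    · have h1 : V.getD i 0 = (init n).getD i 0 := by
        rw [hT, List.getD_append _ _ _ _ (by rw [hlen]; exact hi)]
      have h2 : (init n).getD i 0 ∈ init n := getD_mem (inv_init hn).zero i
      unfold init at h2
      rcases List.mem_cons.1 h2 with h3 | h3
      · left; rw [h1]; exact h3
      · right; left
        rw [List.mem_ofFn] at h3
        obtain ⟨j, hj⟩ := h3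
        exact ⟨j, by rw [h1]; exact hj.symm⟩
    · rcases lt_or_ge i V.length with hi2 | hi2
      · right; right
        exact ⟨i - (n + 1), by omega, by omega⟩
      · left
        exact List.getD_eq_default _ _ hi2
  have hX : ∀ k i, Avail w k (X k i) := by
    intro k i
    rcases lt_or_ge i (n + 1 + k) with hi | hi
    · have h1 : X k i = V.getD i 0 := by
        simp only [X, List.getD_eq_getElem?_getD]
        rw [List.getElem?_take_of_lt hi]
      rcases hinit i with h2 | ⟨j, h2⟩ | ⟨l, h2, -⟩
      · left; rw [h1, h2]
      · right; left; exact ⟨j, by rw [h1, h2]⟩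
      · right; right
        refine ⟨l, by omega, ?_⟩
        rw [h1, h2]
    · left
      apply List.getD_eq_default
      rw [List.length_take]
      exact (min_le_left _ _).trans hi
  let a : ℕ → (Fin n → ℂ) := fun k => match cs[k]? with
    | some (.add i _) => X k i
    | some (.sub i _) => X k i
    | some (.smul d i) => d • X k i
    | none => 0
  let b : ℕ → (Fin n → ℂ) := fun k => match cs[k]? with
    | some (.add _ j) => X k j
    | some (.sub _ j) => (-1 : ℂ) • X k j
    | _ => 0
  have hget : ∀ k < cs.length, ∃ g, cs[k]? = some g := fun k hk =>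
    ⟨cs[k], List.getElem?_eq_getElem hk⟩
  have hw : ∀ k < cs.length, w k = a k + b k := by
    intro k hk
    obtain ⟨g, hg⟩ := hget k hk
    have h1 := run_getD cs (init n) k g hg
    rw [hlen, ← hV] at h1
    change V.getD (n + 1 + k) 0 = a k + b k
    rw [h1]
    cases g with
    | add i j => simp only [a, b, hg, Gate.val, X]
    | sub i j =>
      simp only [a, b, hg, Gate.val, X]
      rw [neg_smul, one_smul, sub_eq_add_neg]
    | smul d i => simp only [a, b, hg, Gate.val, X, add_zero]
  have ha : ∀ k < cs.length, ∃ u, Avail w k u ∧ ∃ d : ℂ, a k = d • u := by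
    intro k hk
    obtain ⟨g, hg⟩ := hget k hk
    cases g with
    | add i j => exact ⟨X k i, hX k i, 1, by simp only [a, hg, one_smul]⟩
    | sub i j => exact ⟨X k i, hX k i, 1, by simp only [a, hg, one_smul]⟩
    | smul d i => exact ⟨X k i, hX k i, d, by simp only [a, hg]⟩
  have hb : ∀ k < cs.length, ∃ u, Avail w k u ∧ ∃ d : ℂ, b k = d • u := by
    intro k hk
    obtain ⟨g, hg⟩ := hget k hk
    cases g with
    | add i j => exact ⟨X k j, hX k j, 1, by simp only [b, hg, one_smul]⟩
    | sub i j => exact ⟨X k j, hX k j, -1, by simp only [b, hg]⟩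
    | smul d i => exact ⟨0, Or.inl rfl, 0, by simp only [b, hg, smul_zero]⟩
  set S : Finset ℕ := (range cs.length).filter fun k => isAddB cs[k]? = true with hS
  have hScard : S.card = numAdd cs := by
    rw [hS, card_filter, ← sum_isAdd cs]
  have hSb : ∀ k < cs.length, k ∉ S → b k = 0 := by
    intro k hk hnot
    obtain ⟨g, hg⟩ := hget k hk
    rw [hS, mem_filter, not_and] at hnot
    have h1 := hnot (mem_range.2 hk)
    rw [hg] at h1
    cases g with
    | add i j => exact absurd rfl h1
    | sub i j => exact absurd rfl h1
    | smul d i => simp only [b, hg]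
  set F : Fin n → (Fin n → ℂ) := fun j k => zt n ^ ((j : ℕ) * (k : ℕ)) with hF
  have hz := zt_prim (show 0 < n by omega)
  have hfull : ∀ r j, F r j ≠ 0 := fun r j => pow_ne_zero _ (Complex.exp_ne_zero _)
  have hout : ∀ j, V.getD (out j) 0 = F j := by
    intro j
    rw [hV, out_vec h j]
    funext k
    exact exp_eq_zt n j k
  have hFl : ∀ r, ∃ l < cs.length, ∃ d : ℂ, F r = d • w l := by
    intro r
    rcases hinit (out r) with h2 | ⟨j, h2⟩ | ⟨l, h2, h3⟩
    · exfalso
      apply hfull r ⟨0, by omega⟩
      rw [← hout, h2]
      rfl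
    · exfalso
      obtain ⟨t', ht'⟩ : ∃ t' : Fin n, t' ≠ j := by
        by_cases h0 : j = ⟨0, by omega⟩
        · exact ⟨⟨1, by omega⟩, by rw [h0]; simp [Fin.ext_iff]⟩
        · exact ⟨⟨0, by omega⟩, fun h => h0 h.symm⟩
      apply hfull r t'
      rw [← hout, h2, Pi.single_eq_of_ne ht']
    · exact ⟨l, h3, 1, by rw [one_smul, ← hout, h2]⟩
  have hprop : ∀ r s, r ≠ s → ∀ d : ℂ, F r ≠ d • F s := by
    intro r s hrs d hd
    have h1 := congrFun hd ⟨0, by omega⟩
    have h2 := congrFun hd ⟨1, by omega⟩
    simp only [hF, Pi.smul_apply, smul_eq_mul, mul_zero, pow_zero, mul_one] at h1 h2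
    rw [← h1, one_mul] at h2
    exact hrs (Fin.ext (hz.pow_inj r.2 s.2 h2))
  have hK : n / n.minFac + 1 ≤ n := by
    have h1 : 2 ≤ n.minFac := (Nat.minFac_prime (by omega)).two_le
    have h2 := Nat.div_le_div_left h1 (by norm_num) (a := n)
    omega
  have hmain := count_adds hn (K := n / n.minFac + 1) (Nat.le_add_left _ _) hK hw ha hb S hSb F hFl hfull hprop
    (fun R hR i j hij α β hα hβ => cols_indep hn R hR i j hij α β hα hβ)
  omega

end Vale.Agent.P344
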