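import Vale.Agent.Lib.P344.Adds

/-! P344: the number of scalar multiplications. -/

namespace Vale.Agent.P344

open Finset Polynomial

/-- rational vectors -/
def ratV (n : ℕ) : Submodule ℚ (Fin n → ℂ) where
  carrier := {v | ∀ k, ∃ q : ℚ, v k = (q : ℂ)}
  add_mem' := by
    intro u v hu hv k
    obtain ⟨p, hp⟩ := hu k
    obtain ⟨q, hq⟩ := hv k
    exact ⟨p + q, by rw [Pi.add_apply, hp, hq]; push_cast; rfl⟩
  zero_mem' := fun k => ⟨0, by simp⟩
  smul_mem' := by
    intro c v hv k
    obtain ⟨q, hq⟩ := hv k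
    refine ⟨c * q, ?_⟩
    rw [Pi.smul_apply, hq, Rat.smul_def]
    push_cast
    rfl

theorem muls_run {n : ℕ} (c : List Gate) : ∀ (L : List (Fin n → ℂ)) (T : Finset (Fin n → ℂ)),
    (∀ v ∈ L, v ∈ ratV n ⊔ Submodule.span ℚ (T : Set (Fin n → ℂ))) →
    ∃ T' : Finset (Fin n → ℂ), T'.card ≤ T.card + numMul c ∧
      ∀ v ∈ run L c, v ∈ ratV n ⊔ Submodule.span ℚ (T' : Set (Fin n → ℂ)) := by
  classical
  induction c with
  | nil => intro L T h; exact ⟨T, by simp [numMul], h⟩
  | cons g c ih =>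
    intro L T h
    have hget : ∀ i, L.getD i 0 ∈ ratV n ⊔ Submodule.span ℚ (T : Set (Fin n → ℂ)) := by
      intro i
      rcases lt_or_ge i L.length with hi | hi
      · rw [List.getD_eq_getElem _ _ hi]
        exact h _ (List.getElem_mem hi)
      · rw [List.getD_eq_default _ _ hi]
        exact Submodule.zero_mem _
    cases g with
    | add i j =>
      obtain ⟨T', h1, h2⟩ := ih (L ++ [Gate.val L (.add i j)]) T (by
        intro v hv
        rcases List.mem_append.1 hv with h3 | h3
        · exact h v h3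
        · rw [List.mem_singleton.1 h3]
          exact Submodule.add_mem _ (hget i) (hget j))
      exact ⟨T', h1, h2⟩
    | sub i j =>
      obtain ⟨T', h1, h2⟩ := ih (L ++ [Gate.val L (.sub i j)]) T (by
        intro v hv
        rcases List.mem_append.1 hv with h3 | h3
        · exact h v h3
        · rw [List.mem_singleton.1 h3]
          exact Submodule.sub_mem _ (hget i) (hget j))
      exact ⟨T', h1, h2⟩
    | smul d i =>
      obtain ⟨T', h1, h2⟩ := ih (L ++ [Gate.val L (.smul d i)])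
        (insert (Gate.val L (.smul d i)) T) (by
        intro v hv
        rcases List.mem_append.1 hv with h3 | h3
        · refine (sup_le_sup_left (Submodule.span_mono ?_) (ratV n)) (h v h3)
          exact_mod_cast subset_insert _ _
        · rw [List.mem_singleton.1 h3]
          refine Submodule.mem_sup_right (Submodule.subset_span ?_)
          exact_mod_cast mem_insert_self _ _)
      refine ⟨T', h1.trans ?_, h2⟩
      have h3 := card_insert_le (Gate.val L (.smul d i)) T
      simp only [numMul]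
      omega

/-- the primitive root -/
noncomputable def zt (n : ℕ) : ℂ := Complex.exp (2 * Real.pi * Complex.I / n)

theorem zt_prim {n : ℕ} (hn : 0 < n) : IsPrimitiveRoot (zt n) n :=
  Complex.isPrimitiveRoot_exp n (by omega)

theorem exp_eq_zt (n : ℕ) (j k : Fin n) :
    Complex.exp (2 * Real.pi * Complex.I * ((j : ℂ) * (k : ℂ)) / n) =
      zt n ^ ((j : ℕ) * (k : ℕ)) := by
  unfold zt
  rw [← Complex.exp_nat_mul]
  congr 1
  push_cast
  ring

theorem orth {n : ℕ} (hn : 0 < n) (m : ℕ) :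
    ∑ k : Fin n, zt n ^ (m * (k : ℕ)) = if n ∣ m then (n : ℂ) else 0 := by
  have hz := zt_prim hn
  have h1 : ∑ k : Fin n, zt n ^ (m * (k : ℕ)) = ∑ k ∈ range n, (zt n ^ m) ^ k := by
    rw [← Fin.sum_univ_eq_sum_range]
    exact sum_congr rfl fun k _ => pow_mul _ _ _
  rw [h1]
  split_ifs with h
  · rw [(hz.pow_eq_one_iff_dvd m).2 h]
    simp
  · have h2 : zt n ^ m ≠ 1 := fun h3 => h ((hz.pow_eq_one_iff_dvd m).1 h3)
    rw [geom_sum_eq h2, ← pow_mul, mul_comm m n, pow_mul, hz.pow_eq_one, one_pow, sub_self,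
      zero_div]

/-- the transform of the rational coefficients, evaluated -/
noncomputable def rr (n : ℕ) (c : Fin n → ℚ) (k : Fin n) : ℂ :=
  ∑ j : Fin n, (c j : ℂ) * zt n ^ ((j : ℕ) * (k : ℕ))

noncomputable def ss (n : ℕ) (r : Fin n → ℂ) (m : ℕ) : ℂ :=
  ∑ k : Fin n, r k * zt n ^ (m * (k : ℕ))

theorem ss_rr {n : ℕ} (hn : 0 < n) (c : Fin n → ℚ) (m : ℕ) :
    ss n (rr n c) m = n * c ⟨(n - m % n) % n, Nat.mod_lt _ hn⟩ := by
  have h1 : ss n (rr n c) m =
      ∑ j : Fin n, (c j : ℂ) * (if n ∣ (j : ℕ) + m then (n : ℂ) else 0) := by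
    unfold ss rr
    simp_rw [sum_mul]
    rw [sum_comm]
    refine sum_congr rfl fun j _ => ?_
    rw [← orth hn, mul_sum]
    refine sum_congr rfl fun k _ => ?_
    rw [mul_assoc, ← pow_add]
    congr 2
    ring
  rw [h1, sum_eq_single (⟨(n - m % n) % n, Nat.mod_lt _ hn⟩ : Fin n)]
  · rw [if_pos]
    · ring
    · simp only
      have h2 : ((n - m % n) % n + m) % n = 0 := by
        rw [Nat.mod_add_mod, Nat.add_mod]
        have h3 : m % n < n := Nat.mod_lt _ hn
        rcases Nat.eq_zero_or_pos (m % n) with h4 | h4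
        · rw [h4]; simp
        · rw [Nat.mod_eq_of_lt (show n - m % n < n by omega),
            show n - m % n + m % n = n by omega, Nat.mod_self]
      exact Nat.dvd_of_mod_eq_zero h2
  · intro j _ hj
    rw [if_neg, mul_zero]
    intro hdvd
    apply hj
    apply Fin.ext
    simp only
    have h3 : m % n < n := Nat.mod_lt _ hn
    have h5 : ((j : ℕ) + m % n) % n = 0 := by
      rw [Nat.add_mod_mod]
      exact Nat.mod_eq_zero_of_dvd hdvd
    have hj2 := j.2
    rcases Nat.eq_zero_or_pos (m % n) with h4 | h4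
    · rw [h4, add_zero, Nat.mod_eq_of_lt hj2] at h5
      rw [h4, h5]; simp
    · rw [Nat.mod_eq_of_lt (show n - m % n < n by omega)]
      have h6 : (j : ℕ) + m % n = n := by
        have h7 := Nat.dvd_of_mod_eq_zero h5
        obtain ⟨q, hq⟩ := h7
        have h8 : q = 1 := by
          have : q < 2 := by
            by_contra hcon
            push Not at hcon
            have := Nat.mul_le_mul_left n hcon
            omega
          have : q ≠ 0 := by
            rintro rfl
            omega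
          omega
        rw [hq, h8, mul_one]
      omega
  · intro h; exact absurd (mem_univ _) h

theorem ss_coprime {n : ℕ} (hn : 0 < n) (c : Fin n → ℚ) (hc : ∀ k, ∃ q : ℚ, rr n c k = (q : ℂ))
    (a m : ℕ) (ha : a.Coprime n) : ss n (rr n c) (a * m) = ss n (rr n c) m := by
  choose r hr using hc
  set q : ℚ := n * c ⟨(n - m % n) % n, Nat.mod_lt _ hn⟩ with hq
  set P : ℚ[X] := ∑ k : Fin n, C (r k) * X ^ (m * (k : ℕ)) with hP
  have hev : ∀ z : ℂ, aeval z P = ∑ k : Fin n, rr n c k * z ^ (m * (k : ℕ)) := by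
    intro z
    rw [hP, map_sum]
    refine sum_congr rfl fun k _ => ?_
    rw [map_mul, aeval_C, map_pow, aeval_X, hr k]
    rfl
  have h1 : aeval (zt n) (P - C q) = 0 := by
    rw [map_sub, hev, aeval_C]
    have h2 := ss_rr hn c m
    unfold ss at h2
    rw [h2, hq]
    simp
  have hz := zt_prim hn
  have hza := hz.pow_of_coprime a ha
  have h3 : minpoly ℚ (zt n) ∣ P - C q := minpoly.dvd _ _ h1
  rw [← Polynomial.cyclotomic_eq_minpoly_rat hz hn, Polynomial.cyclotomic_eq_minpoly_rat hza hn]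
    at h3
  obtain ⟨Q, hQ⟩ := h3
  have h4 : aeval (zt n ^ a) (P - C q) = 0 := by
    rw [hQ, map_mul, minpoly.aeval, zero_mul]
  rw [map_sub, hev, aeval_C, sub_eq_zero] at h4
  have h5 : ss n (rr n c) (a * m) = ∑ k : Fin n, rr n c k * (zt n ^ a) ^ (m * (k : ℕ)) := by
    unfold ss
    refine sum_congr rfl fun k _ => ?_
    rw [← pow_mul, mul_assoc]
  rw [h5, h4, ss_rr hn c m, hq]
  simp

theorem exists_coprime_gcd {n : ℕ} (hn : 0 < n) (m : ℕ) :
    ∃ a : ℕ, a.Coprime n ∧ (a * Nat.gcd m n) % n = m % n := by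
  have : NeZero n := ⟨by omega⟩
  set g := Nat.gcd m n with hg
  have hg0 : 0 < g := Nat.gcd_pos_of_pos_right _ hn
  obtain ⟨m', hm'⟩ := Nat.gcd_dvd_left m n
  obtain ⟨n', hn'⟩ := Nat.gcd_dvd_right m n
  rw [← hg] at hm' hn'
  have hcop : Nat.Coprime m' n' := by
    have h1 := Nat.coprime_div_gcd_div_gcd (m := m) (n := n) hg0
    rw [← hg] at h1
    rw [hm', Nat.mul_div_cancel_left _ hg0] at h1
    rw [hn', Nat.mul_div_cancel_left _ hg0] at h1
    exact h1
  have hdvd : n' ∣ n := ⟨g, by rw [hn']; ring⟩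
  obtain ⟨b, hb⟩ := ZMod.unitsMap_surjective hdvd (ZMod.unitOfCoprime m' hcop)
  refine ⟨(b : ZMod n).val, ZMod.val_coe_unit_coprime b, ?_⟩
  have h2 : (((b : ZMod n).val : ℕ) : ZMod n') = (m' : ZMod n') := by
    have h3 := congrArg Units.val hb
    rw [ZMod.coe_unitOfCoprime] at h3
    rw [← h3, ZMod.unitsMap_val]
    rw [ZMod.natCast_val]
  rw [ZMod.natCast_eq_natCast_iff] at h2
  have h4 : (b : ZMod n).val * g ≡ m' * g [MOD n' * g] := Nat.ModEq.mul_right' g h2
  have e1 : n' * g = n := by rw [hn']; ring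
  have e2 : m' * g = m := by rw [hm']; ring
  rw [e1, e2] at h4
  exact h4

theorem ss_mod {n : ℕ} (hn : 0 < n) (r : Fin n → ℂ) (m m' : ℕ) (h : m % n = m' % n) :
    ss n r m = ss n r m' := by
  have hz := zt_prim hn
  have h1 : ∀ m, zt n ^ m = zt n ^ (m % n) := by
    intro m
    conv_lhs => rw [← Nat.div_add_mod m n, pow_add, pow_mul, hz.pow_eq_one, one_pow, one_mul]
  unfold ss
  refine sum_congr rfl fun k _ => ?_
  rw [pow_mul, pow_mul, h1 m, h1 m', h]

/-- the kernel of the transform modulo rational vectors is small -/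
theorem ker_zero {n : ℕ} (hn : 0 < n) (c : Fin n → ℚ) (hc : ∀ k, ∃ q : ℚ, rr n c k = (q : ℂ))
    (h0 : ∀ g ∈ n.divisors, c ⟨(n - g) % n, Nat.mod_lt _ hn⟩ = 0) : c = 0 := by
  have hn0 : (n : ℂ) ≠ 0 := by exact_mod_cast hn.ne'
  have hs : ∀ m, ss n (rr n c) m = 0 := by
    intro m
    obtain ⟨a, ha, ham⟩ := exists_coprime_gcd hn m
    rw [← ss_mod hn _ _ _ ham, ss_coprime hn c hc a _ ha, ss_rr hn]
    have hgd : Nat.gcd m n ∈ n.divisors := Nat.mem_divisors.2 ⟨Nat.gcd_dvd_right m n, hn.ne'⟩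
    have h1 := h0 _ hgd
    have h2 : (n - Nat.gcd m n % n) % n = (n - Nat.gcd m n) % n := by
      have hle : Nat.gcd m n ≤ n := Nat.gcd_le_right m hn
      rcases hle.lt_or_eq with h3 | h3
      · rw [Nat.mod_eq_of_lt h3]
      · rw [h3]; simp
    have h3 : (⟨(n - Nat.gcd m n % n) % n, Nat.mod_lt _ hn⟩ : Fin n) =
        ⟨(n - Nat.gcd m n) % n, Nat.mod_lt _ hn⟩ := Fin.ext h2
    rw [h3, h1]
    simp
  funext j
  have h1 := hs (n - j)
  rw [ss_rr hn] at h1
  have h2 : (⟨(n - (n - (j : ℕ)) % n) % n, Nat.mod_lt _ hn⟩ : Fin n) = j := by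
    apply Fin.ext
    simp only
    have hj := j.2
    rcases Nat.eq_zero_or_pos (j : ℕ) with h3 | h3
    · rw [h3]; simp
    · rw [Nat.mod_eq_of_lt (show n - (j : ℕ) < n by omega),
        show n - (n - (j : ℕ)) = (j : ℕ) by omega, Nat.mod_eq_of_lt hj]
  rw [h2] at h1
  have h3 := (mul_eq_zero.1 h1).resolve_left hn0
  exact_mod_cast h3

/-- rational combinations of the rows of the Fourier matrix -/
noncomputable def comb (n : ℕ) : (Fin n → ℚ) →ₗ[ℚ] (Fin n → ℂ) where
  toFun c := fun k => rr n c k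
  map_add' := by
    intro c d
    funext k
    simp only [rr, Pi.add_apply]
    rw [← sum_add_distrib]
    refine sum_congr rfl fun j _ => ?_
    push_cast
    ring
  map_smul' := by
    intro q c
    funext k
    simp only [rr, Pi.smul_apply, RingHom.id_apply, Rat.smul_def, smul_eq_mul]
    rw [mul_sum]
    refine sum_congr rfl fun j _ => ?_
    push_cast
    ring

theorem muls_bound {n : ℕ} (hn : 2 ≤ n) {c : List Gate} {out : Fin n → ℕ}
    (h : ComputesDFT n c out) : n ≤ numMul c + n.divisors.card := by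
  classical
  have hn0 : 0 < n := by omega
  obtain ⟨T, hT, hTm⟩ := muls_run c (init n) ∅ (by
    intro v hv
    refine Submodule.mem_sup_left ?_
    unfold init at hv
    rcases List.mem_cons.1 hv with h1 | h1
    · rw [h1]; exact Submodule.zero_mem _
    · rw [List.mem_ofFn] at h1
      obtain ⟨k, hk⟩ := h1
      rw [← hk]
      intro i
      by_cases hik : i = k
      · exact ⟨1, by rw [hik, Pi.single_eq_same]; simp⟩
      · exact ⟨0, by rw [Pi.single_eq_of_ne hik]; simp⟩)
  rw [card_empty, zero_add] at hT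
  have h0mem : (0 : Fin n → ℂ) ∈ run (init n) c := (inv_run hn0 c (init n) 0 (inv_init hn)).zero
  have hrow : ∀ j : Fin n, (fun k : Fin n => zt n ^ ((j : ℕ) * (k : ℕ))) ∈
      ratV n ⊔ Submodule.span ℚ (T : Set (Fin n → ℂ)) := by
    intro j
    have h1 := hTm _ (getD_mem h0mem (out j))
    rw [out_vec h j] at h1
    have h2 : (fun k : Fin n => Complex.exp (2 * Real.pi * Complex.I * ((j : ℂ) * (k : ℂ)) / n)) =
        fun k : Fin n => zt n ^ ((j : ℕ) * (k : ℕ)) := funext fun k => exp_eq_zt n j k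
    rw [← h2]
    exact h1
  set Φ : (Fin n → ℚ) →ₗ[ℚ] ((Fin n → ℂ) ⧸ ratV n) := (ratV n).mkQ ∘ₗ comb n with hΦ
  have hrange : LinearMap.range Φ ≤
      Submodule.span ℚ (((ratV n).mkQ : (Fin n → ℂ) → _) '' (T : Set (Fin n → ℂ))) := by
    rintro _ ⟨d, rfl⟩
    rw [hΦ, LinearMap.comp_apply]
    have h1 : comb n d ∈ ratV n ⊔ Submodule.span ℚ (T : Set (Fin n → ℂ)) := by
      have h2 : comb n d = ∑ j : Fin n, d j • (fun k : Fin n => zt n ^ ((j : ℕ) * (k : ℕ))) := by
        funext k
        rw [Finset.sum_apply]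
        show rr n d k = _
        unfold rr
        refine sum_congr rfl fun j _ => ?_
        rw [Pi.smul_apply, Rat.smul_def]
      rw [h2]
      exact Submodule.sum_mem _ fun j _ => Submodule.smul_mem _ _ (hrow j)
    have h3 : (ratV n).mkQ (comb n d) ∈
        (ratV n ⊔ Submodule.span ℚ (T : Set (Fin n → ℂ))).map (ratV n).mkQ :=
      Submodule.mem_map_of_mem h1
    rw [Submodule.map_sup, Submodule.mkQ_map_self, bot_sup_eq, Submodule.map_span] at h3
    exact h3
  have hfin : Module.finrank ℚ (LinearMap.range Φ) ≤ T.card := by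
    have hf : ((((ratV n).mkQ : (Fin n → ℂ) → _) '' (T : Set (Fin n → ℂ)))).Finite :=
      T.finite_toSet.image _
    have : FiniteDimensional ℚ (Submodule.span ℚ
        (((ratV n).mkQ : (Fin n → ℂ) → _) '' (T : Set (Fin n → ℂ)))) :=
      FiniteDimensional.span_of_finite ℚ hf
    refine (Submodule.finrank_mono hrange).trans ?_
    have h1 : (((ratV n).mkQ : (Fin n → ℂ) → _) '' (T : Set (Fin n → ℂ))) =
        ((T.image ((ratV n).mkQ : (Fin n → ℂ) → _) : Finset _) : Set _) := by
      rw [coe_image]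
    rw [h1]
    exact (finrank_span_finset_le_card (R := ℚ)
      (T.image ((ratV n).mkQ : (Fin n → ℂ) → _))).trans card_image_le
  have hker : Module.finrank ℚ (LinearMap.ker Φ) ≤ n.divisors.card := by
    let ev : LinearMap.ker Φ →ₗ[ℚ] (n.divisors → ℚ) :=
      { toFun := fun d g => (d : Fin n → ℚ) ⟨(n - (g : ℕ)) % n, Nat.mod_lt _ hn0⟩
        map_add' := fun _ _ => rfl
        map_smul' := fun _ _ => rfl }
    have hinj : Function.Injective ev := by
      rw [← LinearMap.ker_eq_bot, LinearMap.ker_eq_bot']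
      intro d hd
      apply Subtype.ext
      have hd1 : comb n (d : Fin n → ℚ) ∈ ratV n := by
        have h1 : (ratV n).mkQ (comb n (d : Fin n → ℚ)) = 0 := LinearMap.mem_ker.1 d.2
        rwa [Submodule.mkQ_apply, Submodule.Quotient.mk_eq_zero] at h1
      exact ker_zero hn0 (d : Fin n → ℚ) (fun k => hd1 k) (fun g hg => by
        have h2 := congrFun hd (⟨g, hg⟩ : n.divisors)
        exact h2)
    have h1 := LinearMap.finrank_le_finrank_of_injective hinj
    rw [Module.finrank_pi] at h1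
    simpa using h1
  have htot := LinearMap.finrank_range_add_finrank_ker Φ
  rw [Module.finrank_pi, Fintype.card_fin] at htot
  omega

end Vale.Agent.P344
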