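import Vale.Agent.Lib.P344.Elim
import Vale.Agent.Lib.P344.Muls

/-! P344: at least `3 n - n / p - 3` additions, `p` the least prime factor of `n`. -/

namespace Vale.Agent.P344

open Finset

section

variable {n : ℕ}

open Classical in
theorem count_adds (hn : 2 ≤ n) {K : ℕ} (hK : 1 ≤ K) (hKn : K ≤ n)
    {w a b : ℕ → (Fin n → ℂ)} {m : ℕ}
    (hw : ∀ k < m, w k = a k + b k)
    (ha : ∀ k < m, ∃ u, Avail w k u ∧ ∃ c : ℂ, a k = c • u)
    (hb : ∀ k < m, ∃ u, Avail w k u ∧ ∃ c : ℂ, b k = c • u)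
    (S : Finset ℕ) (hS : ∀ k < m, k ∉ S → b k = 0)
    (F : Fin n → (Fin n → ℂ)) (hF : ∀ r, ∃ l < m, ∃ c : ℂ, F r = c • w l)
    (hfull : ∀ r j, F r j ≠ 0) (hprop : ∀ r s, r ≠ s → ∀ c : ℂ, F r ≠ c • F s)
    (hcol : ∀ R : Finset (Fin n), K ≤ R.card → ∀ i j : Fin n, i ≠ j → ∀ α β : ℂ, α ≠ 0 → β ≠ 0 →
      ∃ r ∈ R, β * F r i ≠ α * F r j) :
    3 * n ≤ S.card + K + 2 := by
  have hex : ∀ r, ∃ l, l < m ∧ ∃ c : ℂ, F r = c • w l := fun r => by
    obtain ⟨l, hl, c, hc⟩ := hF r
    exact ⟨l, hl, c, hc⟩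
  let o : Fin n → ℕ := fun r => Nat.find (hex r)
  have ho : ∀ r, o r < m ∧ ∃ c : ℂ, F r = c • w (o r) := fun r => Nat.find_spec (hex r)
  have homin : ∀ r l, l < o r → ¬ (l < m ∧ ∃ c : ℂ, F r = c • w l) := fun r l h =>
    Nat.find_min (hex r) h
  have hinj : Function.Injective o := by
    intro r s hrs
    by_contra hne
    obtain ⟨-, c, hc⟩ := ho r
    obtain ⟨-, d, hd⟩ := ho s
    have hd0 : d ≠ 0 := by
      intro h0
      apply hfull s ⟨0, by omega⟩
      rw [hd, h0, zero_smul]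
      rfl
    apply hprop r s hne (c / d)
    rw [hd, smul_smul, div_mul_cancel₀ _ hd0, hc, hrs]
  have hoS : ∀ r, o r ∈ S := by
    intro r
    by_contra hnot
    obtain ⟨hm, c, hc⟩ := ho r
    have hb0 := hS _ hm hnot
    obtain ⟨u, hu, d, hd⟩ := ha _ hm
    have hwu : w (o r) = d • u := by rw [hw _ hm, hb0, add_zero, hd]
    have hFu : F r = (c * d) • u := by rw [hc, hwu, smul_smul]
    rcases hu with h | ⟨t, h⟩ | ⟨l, hl, h⟩
    · apply hfull r ⟨0, by omega⟩
      rw [hFu, h, smul_zero]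
      rfl
    · obtain ⟨t', ht'⟩ : ∃ t' : Fin n, t' ≠ t := by
        by_cases h0 : t = ⟨0, by omega⟩
        · exact ⟨⟨1, by omega⟩, by rw [h0]; simp [Fin.ext_iff]⟩
        · exact ⟨⟨0, by omega⟩, fun h => h0 h.symm⟩
      apply hfull r t'
      rw [hFu, h, Pi.smul_apply, Pi.single_eq_of_ne ht', smul_zero]
    · exact homin r l hl ⟨lt_trans hl hm, c * d, h ▸ hFu⟩
  -- the prefix
  let R : ℕ → Finset (Fin n) := fun q => univ.filter fun r => o r < q
  have hRm : (R m).card = n := by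
    have : R m = univ := by
      ext r
      simp [R, (ho r).1]
    rw [this, card_univ, Fintype.card_fin]
  have hexq : ∃ q, K ≤ (R q).card := ⟨m, by rw [hRm]; exact hKn⟩
  set q := Nat.find hexq with hq
  have hq1 : K ≤ (R q).card := Nat.find_spec hexq
  have hqm : q ≤ m := Nat.find_min' hexq (by rw [hRm]; exact hKn)
  have hq0 : q ≠ 0 := by
    intro h0
    rw [h0] at hq1
    have : R 0 = ∅ := by
      ext r
      simp [R]
    rw [this, card_empty] at hq1
    omega
  have hq2 : (R q).card ≤ K := by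
    have h1 : ¬ K ≤ (R (q - 1)).card := Nat.find_min hexq (by omega)
    have h2 : R q ⊆ R (q - 1) ∪ univ.filter fun r => o r = q - 1 := by
      intro r hr
      simp only [R, mem_union, mem_filter, mem_univ, true_and] at hr ⊢
      omega
    have h3 : (univ.filter fun r => o r = q - 1).card ≤ 1 := by
      rw [card_le_one]
      intro r hr s hs
      simp only [mem_filter, mem_univ, true_and] at hr hs
      exact hinj (hr.trans hs.symm)
    have h4 := (card_le_card h2).trans (card_union_le _ _)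
    omega
  have hRne : (R q).Nonempty := by
    rw [← card_pos]
    omega
  have halive := alive_card (w := w) (a := a) (b := b) (q := q)
    (fun k hk => hw k (lt_of_lt_of_le hk hqm)) (fun k hk => ha k (lt_of_lt_of_le hk hqm))
    (fun k hk => hb k (lt_of_lt_of_le hk hqm)) (R := (R q).image F)
    (by
      intro f hf
      obtain ⟨r, hr, rfl⟩ := mem_image.1 hf
      obtain ⟨-, c, hc⟩ := ho r
      exact ⟨o r, (mem_filter.1 hr).2, c, hc⟩)
    (hRne.image F)
    (by
      intro f hf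
      obtain ⟨r, hr, rfl⟩ := mem_image.1 hf
      exact hfull r)
    (by
      intro i j hij α β hα hβ
      obtain ⟨r, hr, hne⟩ := hcol (R q) hq1 i j hij α β hα hβ
      exact ⟨F r, mem_image_of_mem _ hr, hne⟩)
    (n - 1) univ (by rw [card_univ, Fintype.card_fin]; omega)
  have hsubS : alive a b q univ ⊆ S.filter fun k => k < q := by
    intro k hk
    simp only [alive, mem_filter, mem_range] at hk
    rw [mem_filter]
    refine ⟨?_, hk.1⟩
    by_contra hnot
    have hkm : k < m := lt_of_lt_of_le hk.1 hqm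
    obtain ⟨-, -, ⟨t, -, ht⟩⟩ := hk
    apply ht
    rw [hS k hkm hnot]
    rfl
  have hsub2 : (univ \ R q).image o ⊆ S.filter fun k => ¬ k < q := by
    intro k hk
    obtain ⟨r, hr, rfl⟩ := mem_image.1 hk
    rw [mem_filter]
    refine ⟨hoS r, ?_⟩
    intro hlt
    rw [mem_sdiff] at hr
    exact hr.2 (mem_filter.2 ⟨mem_univ _, hlt⟩)
  have h1 := card_le_card hsubS
  have h2 := card_le_card hsub2
  rw [card_image_of_injective _ hinj, card_sdiff_of_subset (subset_univ _), card_univ,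
    Fintype.card_fin] at h2
  have h3 := card_filter_add_card_filter_not (s := S) (fun k => k < q)
  omega

end

/-- two columns of the Fourier matrix are not proportional on more than `n / p` rows -/
theorem cols_indep {n : ℕ} (hn : 2 ≤ n) (R : Finset (Fin n)) (hR : n / n.minFac + 1 ≤ R.card)
    (i j : Fin n) (hij : i ≠ j) (α β : ℂ) (hα : α ≠ 0) (hβ : β ≠ 0) :
    ∃ r ∈ R, β * zt n ^ ((r : ℕ) * (i : ℕ)) ≠ α * zt n ^ ((r : ℕ) * (j : ℕ)) := by
  by_contra hcon
  push Not at hcon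
  have hz := zt_prim (show 0 < n by omega)
  have hz0 : zt n ≠ 0 := Complex.exp_ne_zero _
  -- differences of rows
  have hdiv : ∀ r ∈ R, ∀ s ∈ R, (n : ℤ) ∣ ((r : ℤ) - s) * ((i : ℤ) - j) := by
    intro r hr s hs
    have h1 := hcon r hr
    have h2 := hcon s hs
    have h3 : zt n ^ ((r : ℕ) * (i : ℕ) + (s : ℕ) * (j : ℕ)) =
        zt n ^ ((s : ℕ) * (i : ℕ) + (r : ℕ) * (j : ℕ)) := by
      have h4 : (β * zt n ^ ((r : ℕ) * (i : ℕ))) * (α * zt n ^ ((s : ℕ) * (j : ℕ))) =
          (α * zt n ^ ((r : ℕ) * (j : ℕ))) * (β * zt n ^ ((s : ℕ) * (i : ℕ))) := by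
        rw [h1, ← h2]
      have h5 : (α * β) * zt n ^ ((r : ℕ) * (i : ℕ) + (s : ℕ) * (j : ℕ)) =
          (α * β) * zt n ^ ((s : ℕ) * (i : ℕ) + (r : ℕ) * (j : ℕ)) := by
        rw [pow_add, pow_add]
        linear_combination h4
      exact mul_left_cancel₀ (mul_ne_zero hα hβ) h5
    have h6 : zt n ^ (((r : ℤ) * i + s * j) - (s * i + r * j)) = 1 := by
      rw [zpow_sub₀ hz0]
      have e1 : zt n ^ ((r : ℤ) * i + s * j) = zt n ^ ((r : ℕ) * (i : ℕ) + (s : ℕ) * (j : ℕ)) := by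
        rw [← zpow_natCast]; push_cast; rfl
      have e2 : zt n ^ ((s : ℤ) * i + r * j) = zt n ^ ((s : ℕ) * (i : ℕ) + (r : ℕ) * (j : ℕ)) := by
        rw [← zpow_natCast]; push_cast; rfl
      rw [e1, e2, h3, div_self (pow_ne_zero _ hz0)]
    have h7 := (hz.zpow_eq_one_iff_dvd _).1 h6
    have h8 : ((r : ℤ) - s) * ((i : ℤ) - j) = ((r : ℤ) * i + s * j) - (s * i + r * j) := by ring
    rw [h8]
    exact h7
  -- the order
  set g : ℕ := Int.gcd ((i : ℤ) - j) n with hg
  have hgn : g ∣ n := by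
    exact Int.natCast_dvd_natCast.1 (Int.gcd_dvd_right ((i : ℤ) - j) (n : ℤ))
  have hgi : (g : ℤ) ∣ (i : ℤ) - j := Int.gcd_dvd_left _ _
  obtain ⟨D, hD⟩ := hgn
  have hg0 : 0 < g := Nat.pos_of_ne_zero fun h0 => by rw [h0, zero_mul] at hD; omega
  have hD0 : 0 < D := Nat.pos_of_ne_zero fun h0 => by rw [h0, mul_zero] at hD; omega
  have hDdiv : ∀ r ∈ R, ∀ s ∈ R, (D : ℤ) ∣ (r : ℤ) - s := by
    intro r hr s hs
    have h1 := hdiv r hr s hs
    obtain ⟨t, ht⟩ := hgi
    have h2 : (g : ℤ) * D ∣ (g : ℤ) * (((r : ℤ) - s) * t) := by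
      have e1 : ((n : ℕ) : ℤ) = (g : ℤ) * D := by exact_mod_cast hD
      rw [← e1]
      have e2 : (g : ℤ) * (((r : ℤ) - s) * t) = ((r : ℤ) - s) * ((i : ℤ) - j) := by
        rw [ht]; ring
      rw [e2]
      exact h1
    have h3 : (D : ℤ) ∣ ((r : ℤ) - s) * t :=
      (mul_dvd_mul_iff_left (by exact_mod_cast hg0.ne')).1 h2
    have hcop : IsCoprime (D : ℤ) t := by
      rw [Int.isCoprime_iff_gcd_eq_one]
      have h4 : Int.gcd ((i : ℤ) - j) n = g * Int.gcd t D := by
        rw [ht, hD]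
        push_cast
        rw [Int.gcd_mul_left, Int.natAbs_natCast]
      rw [← hg] at h4
      have h5 : Int.gcd t D = 1 := by
        have : g * 1 = g * Int.gcd t D := by rw [mul_one]; exact h4
        exact (Nat.eq_of_mul_eq_mul_left hg0 this).symm
      rw [Int.gcd_comm]
      exact h5
    exact hcop.dvd_of_dvd_mul_right h3
  have hD1 : D ≠ 1 := by
    intro h1
    rw [h1, mul_one] at hD
    rw [← hD] at hgi
    have hi := i.2
    have hj := j.2
    have hne : (i : ℤ) - j ≠ 0 := by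
      intro h0
      apply hij
      apply Fin.ext
      omega
    have := Int.le_of_dvd (abs_pos.2 hne) ((dvd_abs _ _).2 hgi)
    rcases abs_cases ((i : ℤ) - j) with h | h <;> omega
  have hDn : D ∣ n := ⟨g, by rw [hD]; ring⟩
  have hpD : n.minFac ≤ D := Nat.minFac_le_of_dvd (by omega) hDn
  have hcard : R.card ≤ n / D := by
    have h1 : R.card ≤ (range (n / D)).card := by
      refine card_le_card_of_injOn (fun r => (r : ℕ) / D) ?_ ?_
      · intro r hr
        simp only [coe_range, Set.mem_Iio]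
        exact Nat.div_lt_div_of_lt_of_dvd hDn r.2
      · intro r hr s hs hrs
        simp only [mem_coe] at hr hs
        obtain ⟨t, ht⟩ := hDdiv r hr s hs
        simp only at hrs
        apply Fin.ext
        have h2 := Nat.div_add_mod (r : ℕ) D
        have h3 := Nat.div_add_mod (s : ℕ) D
        have h4 : (r : ℕ) % D = (s : ℕ) % D := by
          have h5 : ((s : ℕ) : ℤ) ≡ ((r : ℕ) : ℤ) [ZMOD (D : ℤ)] := Int.modEq_iff_dvd.2 ⟨t, ht⟩
          have h6 : ((r : ℕ) : ℤ) % (D : ℤ) = ((s : ℕ) : ℤ) % (D : ℤ) := h5.symm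
          exact_mod_cast h6
        rw [← h2, ← h3, hrs, h4]
    rwa [card_range] at h1
  have := Nat.div_le_div_left hpD (Nat.minFac_pos n) (a := n)
  omega

end Vale.Agent.P344
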