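import Mathlib

/-! P344: linear circuits. -/

namespace Vale.Agent.P344

/-- A gate of a linear circuit. The numbers are positions in the list of the values computed
before. -/
inductive Gate where
  | add (i j : ℕ)
  | sub (i j : ℕ)
  | smul (c : ℂ) (i : ℕ)

/-- the value of a gate, given the list of earlier values -/
def Gate.val {M : Type} [AddCommGroup M] [Module ℂ M] (L : List M) : Gate → M
  | .add i j => L.getD i 0 + L.getD j 0
  | .sub i j => L.getD i 0 - L.getD j 0
  | .smul c i => c • L.getD i 0

/-- all values after running the gates in order, starting from the list `L` -/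
def run {M : Type} [AddCommGroup M] [Module ℂ M] : List M → List Gate → List M
  | L, [] => L
  | L, g :: c => run (L ++ [g.val L]) c

/-- the circuit `c` with output positions `out` computes the discrete Fourier transform of order
`n`; the initial list is the constant `0` followed by the inputs `x_0, ..., x_{n-1}` -/
def ComputesDFT (n : ℕ) (c : List Gate) (out : Fin n → ℕ) : Prop :=
  ∀ (x : Fin n → ℂ) (j : Fin n), (run ((0 : ℂ) :: List.ofFn x) c).getD (out j) 0 =
    ∑ k : Fin n, Complex.exp (2 * Real.pi * Complex.I * (j * k) / n) * x k

/-- number of additions and subtractions -/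
def numAdd : List Gate → ℕ
  | [] => 0
  | .add _ _ :: c => numAdd c + 1
  | .sub _ _ :: c => numAdd c + 1
  | .smul _ _ :: c => numAdd c

/-- number of scalar multiplications -/
def numMul : List Gate → ℕ
  | [] => 0
  | .add _ _ :: c => numMul c
  | .sub _ _ :: c => numMul c
  | .smul _ _ :: c => numMul c + 1

end Vale.Agent.P344
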