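import Mathlib

/-! P344: elimination of inputs in a straight-line program, in abstract form. -/

namespace Vale.Agent.P344

open Finset

section

variable {n : ℕ}

/-- available vectors before step `k` -/
def Avail (w : ℕ → (Fin n → ℂ)) (k : ℕ) (u : Fin n → ℂ) : Prop :=
  u = 0 ∨ (∃ j, u = Pi.single j 1) ∨ ∃ l < k, u = w l

open Classical in
/-- steps below `q` whose two summands are both nonzero on `J` -/
noncomputable def alive (a b : ℕ → (Fin n → ℂ)) (q : ℕ) (J : Finset (Fin n)) : Finset ℕ :=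
  (range q).filter fun k => (∃ j ∈ J, a k j ≠ 0) ∧ (∃ j ∈ J, b k j ≠ 0)

/-- one of the summands is a multiple of the input `i` on `J` -/
def IsMul (a b : ℕ → (Fin n → ℂ)) (J : Finset (Fin n)) (i : Fin n) (k : ℕ) : Prop :=
  (∀ j ∈ J, j ≠ i → a k j = 0) ∨ (∀ j ∈ J, j ≠ i → b k j = 0)

/-- supported on at most one point of `J` -/
theorem supp_one {J : Finset (Fin n)} {x : Fin n → ℂ}
    (h : ¬ ∃ i ∈ J, ∃ j ∈ J, i ≠ j ∧ x i ≠ 0 ∧ x j ≠ 0) {i : Fin n} (hi : i ∈ J) (hxi : x i ≠ 0) :
    ∀ j ∈ J, j ≠ i → x j = 0 := by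
  intro j hj hji
  by_contra hne
  exact h ⟨i, hi, j, hj, Ne.symm hji, hxi, hne⟩

open Classical in
theorem two_kills {w a b : ℕ → (Fin n → ℂ)} {q : ℕ}
    (hw : ∀ k < q, w k = a k + b k)
    (ha : ∀ k < q, ∃ u, Avail w k u ∧ ∃ c : ℂ, a k = c • u)
    (hb : ∀ k < q, ∃ u, Avail w k u ∧ ∃ c : ℂ, b k = c • u)
    {R : Finset (Fin n → ℂ)} (hR : ∀ f ∈ R, ∃ l < q, ∃ c : ℂ, f = c • w l) (hRne : R.Nonempty)
    (hfull : ∀ f ∈ R, ∀ j, f j ≠ 0)
    {J : Finset (Fin n)} (hJ : 2 ≤ J.card)
    (hcol : ∀ i ∈ J, ∀ j ∈ J, i ≠ j → ∀ α β : ℂ, α ≠ 0 → β ≠ 0 → ∃ f ∈ R, β * f i ≠ α * f j) :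
    ∃ i ∈ J, 2 ≤ ((alive a b q J).filter (IsMul a b J i)).card := by
  -- the first step with two nonzero coordinates in `J`
  have hex : ∃ k, k < q ∧ ∃ i ∈ J, ∃ j ∈ J, i ≠ j ∧ w k i ≠ 0 ∧ w k j ≠ 0 := by
    obtain ⟨f, hf⟩ := hRne
    obtain ⟨l, hl, c, hc⟩ := hR f hf
    obtain ⟨i, hi, j, hj, hij⟩ := one_lt_card.1 hJ
    refine ⟨l, hl, i, hi, j, hj, hij, ?_, ?_⟩
    · intro h0
      exact hfull f hf i (by rw [hc, Pi.smul_apply, h0, smul_zero])
    · intro h0
      exact hfull f hf j (by rw [hc, Pi.smul_apply, h0, smul_zero])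
  set k0 := Nat.find hex with hk0
  have hk0s := Nat.find_spec hex
  have hmin : ∀ l < k0, ¬ ∃ i ∈ J, ∃ j ∈ J, i ≠ j ∧ w l i ≠ 0 ∧ w l j ≠ 0 := by
    intro l hl h
    exact Nat.find_min hex hl ⟨lt_trans hl hk0s.1, h⟩
  obtain ⟨hk0q, i1, hi1, j1, hj1, hij1, hwi1, hwj1⟩ := hk0s
  rw [← hk0] at hk0q hwi1 hwj1
  -- available vectors at step k0 have at most one nonzero coordinate in `J`
  have hav : ∀ u, Avail w k0 u → ∀ c : ℂ,
      ¬ ∃ i ∈ J, ∃ j ∈ J, i ≠ j ∧ (c • u) i ≠ 0 ∧ (c • u) j ≠ 0 := by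
    rintro u hu c ⟨i, hi, j, hj, hij, h1, h2⟩
    have h1' : u i ≠ 0 := by
      intro h0
      exact h1 (by rw [Pi.smul_apply, h0, smul_zero])
    have h2' : u j ≠ 0 := by
      intro h0
      exact h2 (by rw [Pi.smul_apply, h0, smul_zero])
    rcases hu with h | ⟨t, h⟩ | ⟨l, hl, h⟩
    · exact h1' (by rw [h]; rfl)
    · have e1 : i = t := by
        by_contra hne
        exact h1' (by rw [h]; exact Pi.single_eq_of_ne hne _)
      have e2 : j = t := by
        by_contra hne
        exact h2' (by rw [h]; exact Pi.single_eq_of_ne hne _)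
      exact hij (e1.trans e2.symm)
    · exact hmin l hl ⟨i, hi, j, hj, hij, h ▸ h1', h ▸ h2'⟩
  obtain ⟨ua, hua, ca, hca⟩ := ha k0 hk0q
  obtain ⟨ub, hub, cb, hcb⟩ := hb k0 hk0q
  have hA := hav ua hua ca
  have hB := hav ub hub cb
  rw [← hca] at hA
  rw [← hcb] at hB
  have hsum : ∀ t, w k0 t = a k0 t + b k0 t := fun t => by rw [hw k0 hk0q]; rfl
  -- find i, j with a supported at i and b at j
  obtain ⟨i, hi, j, hj, hij, hai, hbj⟩ : ∃ i ∈ J, ∃ j ∈ J, i ≠ j ∧ a k0 i ≠ 0 ∧ b k0 j ≠ 0 := by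
    by_cases h1 : a k0 i1 = 0
    · have hb1 : b k0 i1 ≠ 0 := by
        intro h0
        exact hwi1 (by rw [hsum, h1, h0, add_zero])
      have hb2 : b k0 j1 = 0 := supp_one hB hi1 hb1 j1 hj1 (Ne.symm hij1)
      have ha2 : a k0 j1 ≠ 0 := by
        intro h0
        exact hwj1 (by rw [hsum, hb2, h0, add_zero])
      exact ⟨j1, hj1, i1, hi1, Ne.symm hij1, ha2, hb1⟩
    · have ha2 : a k0 j1 = 0 := supp_one hA hi1 h1 j1 hj1 (Ne.symm hij1)
      have hb2 : b k0 j1 ≠ 0 := by
        intro h0
        exact hwj1 (by rw [hsum, ha2, h0, add_zero])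
      exact ⟨i1, hi1, j1, hj1, hij1, h1, hb2⟩
  have hAi := supp_one hA hi hai
  have hBj := supp_one hB hj hbj
  have hk0alive : k0 ∈ alive a b q J := by
    simp only [alive, mem_filter, mem_range]
    exact ⟨hk0q, ⟨i, hi, hai⟩, ⟨j, hj, hbj⟩⟩
  by_contra hcon
  push Not at hcon
  have honly : ∀ t ∈ J, k0 ∈ (alive a b q J).filter (IsMul a b J t) →
      ∀ k ∈ alive a b q J, IsMul a b J t k → k = k0 := by
    intro t ht h0 k hk hkt
    have h1 : ((alive a b q J).filter (IsMul a b J t)).card ≤ 1 := by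
      have := hcon t ht
      omega
    exact card_le_one.1 h1 k (mem_filter.2 ⟨hk, hkt⟩) k0 h0
  have hoi := honly i hi (mem_filter.2 ⟨hk0alive, Or.inl hAi⟩)
  have hoj := honly j hj (mem_filter.2 ⟨hk0alive, Or.inr hBj⟩)
  -- the invariant
  set α := a k0 i with hα
  set β := b k0 j with hβ
  let P : (Fin n → ℂ) → Prop := fun x => β * x i = α * x j ∨ (∀ l ∈ J, l ≠ i → x l = 0) ∨
    (∀ l ∈ J, l ≠ j → x l = 0)
  have hPsmul : ∀ x, P x → ∀ c : ℂ, P (c • x) := by
    intro x hx c
    rcases hx with h | h | h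
    · left
      simp only [Pi.smul_apply, smul_eq_mul]
      linear_combination c * h
    · right; left
      intro l hl hli
      rw [Pi.smul_apply, h l hl hli, smul_zero]
    · right; right
      intro l hl hli
      rw [Pi.smul_apply, h l hl hli, smul_zero]
  have hPw : ∀ k, k < q → P (w k) := by
    intro k
    induction k using Nat.strong_induction_on with
    | _ k ih =>
      intro hk
      have hPav : ∀ u, Avail w k u → P u := by
        intro u hu
        rcases hu with h | ⟨t, h⟩ | ⟨l, hl, h⟩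
        · left; rw [h]; simp
        · by_cases hti : t = i
          · right; left
            intro l _ hli
            rw [h, hti]
            exact Pi.single_eq_of_ne hli _
          · by_cases htj : t = j
            · right; right
              intro l _ hlj
              rw [h, htj]
              exact Pi.single_eq_of_ne hlj _
            · left
              rw [h, Pi.single_eq_of_ne (Ne.symm hti), Pi.single_eq_of_ne (Ne.symm htj)]
              simp
        · rw [h]; exact ih l hl (lt_trans hl hk)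
      obtain ⟨u, hu, c, hc⟩ := ha k hk
      obtain ⟨v, hv, d, hd⟩ := hb k hk
      have hPa : P (a k) := hc ▸ hPsmul u (hPav u hu) c
      have hPb : P (b k) := hd ▸ hPsmul v (hPav v hv) d
      have hs : ∀ t, w k t = a k t + b k t := fun t => by rw [hw k hk]; rfl
      by_cases hza : ∃ t ∈ J, a k t ≠ 0
      · by_cases hzb : ∃ t ∈ J, b k t ≠ 0
        · have hkal : k ∈ alive a b q J := by
            simp only [alive, mem_filter, mem_range]
            exact ⟨hk, hza, hzb⟩
          have hk0P : k = k0 → P (w k) := by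
            intro e
            left
            rw [e, hsum, hsum, hAi j hj (Ne.symm hij), hBj i hi hij, add_zero, zero_add]
            ring
          rcases hPa with h1 | h1 | h1
          · rcases hPb with h2 | h2 | h2
            · left
              rw [hs, hs]
              linear_combination h1 + h2
            · exact hk0P (hoi k hkal (Or.inr h2))
            · exact hk0P (hoj k hkal (Or.inr h2))
          · exact hk0P (hoi k hkal (Or.inl h1))
          · exact hk0P (hoj k hkal (Or.inl h1))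
        · push Not at hzb
          rcases hPa with h1 | h1 | h1
          · left
            rw [hs, hs, hzb i hi, hzb j hj, add_zero, add_zero]
            exact h1
          · right; left
            intro l hl hli
            rw [hs, hzb l hl, h1 l hl hli, add_zero]
          · right; right
            intro l hl hli
            rw [hs, hzb l hl, h1 l hl hli, add_zero]
      · push Not at hza
        rcases hPb with h1 | h1 | h1
        · left
          rw [hs, hs, hza i hi, hza j hj, zero_add, zero_add]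
          exact h1
        · right; left
          intro l hl hli
          rw [hs, hza l hl, h1 l hl hli, add_zero]
        · right; right
          intro l hl hli
          rw [hs, hza l hl, h1 l hl hli, add_zero]
  obtain ⟨f, hf, hne⟩ := hcol i hi j hj hij α β hai hbj
  obtain ⟨l, hl, c, hc⟩ := hR f hf
  have hPf : P f := hc ▸ hPsmul _ (hPw l hl) c
  rcases hPf with h | h | h
  · exact hne h
  · exact hfull f hf j (h j hj (Ne.symm hij))
  · exact hfull f hf i (h i hi hij)

open Classical in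
theorem alive_card {w a b : ℕ → (Fin n → ℂ)} {q : ℕ}
    (hw : ∀ k < q, w k = a k + b k)
    (ha : ∀ k < q, ∃ u, Avail w k u ∧ ∃ c : ℂ, a k = c • u)
    (hb : ∀ k < q, ∃ u, Avail w k u ∧ ∃ c : ℂ, b k = c • u)
    {R : Finset (Fin n → ℂ)} (hR : ∀ f ∈ R, ∃ l < q, ∃ c : ℂ, f = c • w l) (hRne : R.Nonempty)
    (hfull : ∀ f ∈ R, ∀ j, f j ≠ 0)
    (hcol : ∀ i j : Fin n, i ≠ j → ∀ α β : ℂ, α ≠ 0 → β ≠ 0 → ∃ f ∈ R, β * f i ≠ α * f j) :
    ∀ (s : ℕ) (J : Finset (Fin n)), J.card = s + 1 → 2 * s ≤ (alive a b q J).card := by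
  intro s
  induction s with
  | zero => intro J _; simp
  | succ s ih =>
    intro J hJ
    obtain ⟨i, hi, h2⟩ := two_kills hw ha hb hR hRne hfull (J := J) (by omega)
      (fun i _ j _ hij => hcol i j hij)
    have h1 := ih (J.erase i) (by rw [card_erase_of_mem hi]; omega)
    have hdisj : Disjoint (alive a b q (J.erase i)) ((alive a b q J).filter (IsMul a b J i)) := by
      rw [disjoint_left]
      intro k hk hk'
      simp only [alive, mem_filter, mem_range, mem_erase] at hk hk'
      obtain ⟨_, ⟨t, ⟨hti, htJ⟩, hta⟩, ⟨t', ⟨hti', htJ'⟩, htb⟩⟩ := hk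
      rcases hk'.2 with h | h
      · exact hta (h t htJ hti)
      · exact htb (h t' htJ' hti')
    have hsub : alive a b q (J.erase i) ∪ (alive a b q J).filter (IsMul a b J i) ⊆
        alive a b q J := by
      intro k hk
      rcases mem_union.1 hk with h | h
      · simp only [alive, mem_filter, mem_range, mem_erase] at h ⊢
        obtain ⟨h0, ⟨t, ⟨_, htJ⟩, hta⟩, ⟨t', ⟨_, htJ'⟩, htb⟩⟩ := h
        exact ⟨h0, ⟨t, htJ, hta⟩, ⟨t', htJ', htb⟩⟩
      · exact (mem_filter.1 h).1
    have h3 := card_le_card hsub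
    rw [card_union_of_disjoint hdisj] at h3
    omega

end

end Vale.Agent.P344
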